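import Mathlib.Analysis.VonNeumannAlgebra.Basic
import Mathlib.Analysis.Normed.Module.Multilinear.Basic
import Mathlib.Analysis.InnerProductSpace.Adjoint

namespace Vale.Agent.P082

/-- `contract j (a₀,…,a_k) = (a₀,…,a_j a_{j+1},…,a_k)`. -/
def contract {A : Type*} [Mul A] {k : ℕ} (j : Fin k) (a : Fin (k + 1) → A) : Fin k → A :=
  fun i => if i < j then a i.castSucc else if i = j then a j.castSucc * a j.succ else a i.succ

/-- The Hochschild differential of a `k`-cochain `f`, evaluated at `a = (a₀,…,a_k)`. -/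
def hochschild {A : Type*} [Ring A] {k : ℕ} (f : (Fin k → A) → A) (a : Fin (k + 1) → A) : A :=
  a 0 * f (fun i => a i.succ)
    + ∑ j : Fin k, (-1) ^ ((j : ℕ) + 1) * f (contract j a)
    + (-1) ^ (k + 1) * (f (fun i => a i.castSucc) * a (Fin.last k))

/-- `H_b^{k+1}(M,M) = 0`: every bounded `(k+1)`-cocycle is the coboundary of a bounded
`k`-cochain. -/
def BoundedCohomologyVanishes (M : Type*) [NormedRing M] [NormedAlgebra ℂ M] (k : ℕ) : Prop :=
  ∀ f : ContinuousMultilinearMap ℂ (fun _ : Fin (k + 1) => M) M,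
    (∀ a, hochschild (fun x => f x) a = 0) →
      ∃ g : ContinuousMultilinearMap ℂ (fun _ : Fin k => M) M,
        ∀ a, hochschild (fun x => g x) a = f a

end Vale.Agent.P082
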