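import Mathlib.Analysis.VonNeumannAlgebra.Basic

open scoped InnerProductSpace

namespace Vale.Agent.P082

universe u

variable {H : Type u} [NormedAddCommGroup H] [InnerProductSpace ℂ H] [CompleteSpace H]

/-- `P` is finite: it has a separating family of normal tracial positive functionals, each
written as `x ↦ ∑ₙ ⟪ξₙ, x ξₙ⟫` with `∑ₙ ‖ξₙ‖² < ∞`. -/
def IsFiniteVN (P : VonNeumannAlgebra H) : Prop :=
  ∃ (J : Type u) (ξ : J → ℕ → H),
    (∀ j, Summable fun n => ‖ξ j n‖ ^ 2) ∧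
    (∀ j, ∀ x ∈ P, ∀ y ∈ P,
      ∑' n, ⟪ξ j n, x (y (ξ j n))⟫_ℂ = ∑' n, ⟪ξ j n, y (x (ξ j n))⟫_ℂ) ∧
    ∀ x ∈ P, (∀ j n, x (ξ j n) = 0) → x = 0

/-- `M` contains unital copies of arbitrarily large full matrix algebras. -/
def ContainsLargeMatrices (M : VonNeumannAlgebra H) : Prop :=
  ∀ k : ℕ, ∃ n, k ≤ n ∧ 0 < n ∧
    Nonempty (Matrix (Fin n) (Fin n) ℂ →⋆ₐ[ℂ] M.toStarSubalgebra)

/-- `P` is the von Neumann algebra generated by a set `S` of operators. -/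
def IsGeneratedBy (P : VonNeumannAlgebra H) (S : Set (H →L[ℂ] H)) : Prop :=
  (P : Set (H →L[ℂ] H)) = Set.centralizer (Set.centralizer (S ∪ star S))

end Vale.Agent.P082
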